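import Vale.Agent.P354KC.Main
import Vale.Agent.P354K.Unif

/-!
The deformation theorem for solutions (h, K) of the constraints in a chart.
-/

open scoped ContDiff
open Set Filter Topology

namespace Vale.Agent.P354KC

open Vale.Agent.P354H (X3 e pd pdl pd_sm pdl_sm dif Sb)
open Vale.Agent.P354J (Bd Tm MS PD CC)
open Vale.Agent.P354K

theorem sym_of {G : M3} (h : G.PosDef) (a b : Fin 3) : G a b = G b a := by
  simpa using h.isHermitian.apply b a

/-- The new data are smooth and solve the constraints. -/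
theorem new_data {B : (Jt → ℝ) → ℝ}
    (A1 : ∀ h K, PD h K → ∀ y,
      (CC h K y ↔ ∀ k, PC B k (at' (jet h fun z => piOf (h z) (K z)) y) = 0))
    (A2 : ∀ h K : M3, h.PosDef → K.IsSymm → (piOf h K).IsSymm ∧ kOf h (piOf h K) = K)
    (A3 : ∀ h π : M3, h.PosDef → π.IsSymm → (kOf h π).IsSymm ∧ piOf h (kOf h π) = π)
    {h K : X3 → M3} {j : Jt → X3 → ℝ} (p : PD h K) (hC : ∀ y, CC h K y) (hj : Jet pd j)
    (pos : ∀ z, (h z + hm (at' j z)).PosDef)
    (h1 : ∀ k, ∀ y ∈ cube, PC B k (at' (jet h fun z => piOf (h z) (K z)) y + at' j y) = 0)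
    (h0 : ∀ x y, y ∉ cube → j x y = 0) :
    PD (fun z => h z + hm (at' j z))
      (fun z => kOf (h z + hm (at' j z)) (piOf (h z) (K z) + pm (at' j z))) ∧
    ∀ y, CC (fun z => h z + hm (at' j z))
      (fun z => kOf (h z + hm (at' j z)) (piOf (h z) (K z) + pm (at' j z))) y := by
  have sh' : MS fun z => hm (at' j z) := fun a b => hj.sm (.h a b)
  have sπ' : MS fun z => pm (at' j z) := fun a b => hj.sm (.p a b)
  have sp := sf_pi.ms p.sh p.sK fun z => (p.pos z).1
  have sy : ∀ z, (piOf (h z) (K z) + pm (at' j z)).IsSymm := fun z =>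
    (A2 _ _ (p.pos z).1 (p.pos z).2).1.add (Matrix.IsSymm.ext fun a b => congrFun (hj.ps b a) z)
  have q : PD (fun z => h z + hm (at' j z))
      (fun z => kOf (h z + hm (at' j z)) (piOf (h z) (K z) + pm (at' j z))) :=
    ⟨p.sh.add sh', sf_k.ms (p.sh.add sh') (sp.add sπ') pos,
      fun z => ⟨pos z, (A3 _ _ (pos z) (sy z)).1⟩⟩
  refine ⟨q, fun y => (A1 _ _ q y).2 fun k => ?_⟩
  simp only [fun z => (A3 _ _ (pos z) (sy z)).2]
  have e1 : at' (jet (fun z => h z + hm (at' j z)) fun z => piOf (h z) (K z) + pm (at' j z)) y =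
      at' (jet h fun z => piOf (h z) (K z)) y + at' j y := by
    funext x
    have := congrFun (jet_add p.sh sp sh' sπ' x) y
    rwa [jet_of hj] at this
  rw [e1]
  by_cases hy : y ∈ cube
  · exact h1 k y hy
  · rw [show at' j y = 0 from funext fun x => h0 x y hy, add_zero]
    exact (A1 _ _ p y).1 (hC y) k

theorem ck (hA : ALG0) (hY : COREY) : COREK := by
  obtain ⟨⟨B, hB, A1⟩, A2, A3⟩ := hA
  intro P l h K hs Ks T χ K0 K1 π lam m hPD hCC hb ⟨c, hc, hlo⟩ hPs cK0 cK1 sK0 sK1 hW hcl hπ hπs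
    hπ0 hl1 hl
  have sp := fun r => sf_pi.ms (hPD r).sh (hPD r).sK fun z => ((hPD r).pos z).1
  obtain ⟨M, C, hev⟩ := hY B hB P l (fun r => jet (h r) fun z => piOf (h r z) (K r z)) K0 K1
    (jet hs fun z => piOf (hs z) (Ks z)) (jet 0 T) χ π lam m
    (fun r => jet_jet (hPD r).sh (sp r) (fun z => sym_of ((hPD r).pos z).1) fun z a b =>
      (A2 _ _ ((hPD r).pos z).1 ((hPD r).pos z).2).1.apply b a)
    (fun x α => (unif hc hPD hb hlo (α.length + 2)).imp fun _ H r y hy =>
      jet_bd (H.2 r y hy).1.bh (H.2 r y hy).2 x α le_rfl)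
    ⟨c, hc, hlo⟩ (fun r k y _ => (A1 _ _ (hPD r) y).1 (hCC r y) k) cK0 cK1 sK0 sK1 hW
    (fun η hη => by
      obtain ⟨B2, -, hB2⟩ := unif hc hPD hb hlo 2
      obtain ⟨C, hC0, hC⟩ := close hc B2
      have h1 : 0 < min (c / 6) (η / (C + 1)) := lt_min (by positivity) (by positivity)
      filter_upwards [hcl _ h1] with r hr x y hy
      refine (hC _ y _ _ _ _ (min_le_left _ _) (hB2 r y (sK1 hy)).1 hPs
        (fun a b => an_one.2 fun α hα => (hr α hα a b y hy).1)
        (fun a b => an_one.2 fun α hα => (hr α hα a b y hy).2) x).trans ?_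
      refine (mul_le_mul_of_nonneg_left (min_le_right _ _) hC0).trans ?_
      rw [← mul_div_assoc, div_le_iff₀ (by positivity)]
      nlinarith)
    hπ (fun r y b c => (hπs r y).apply c b) hπ0 hl1 hl
  obtain ⟨B0, B00, hB0⟩ := unif hc hPD hb hlo m
  choose Cπ Cπ0 hCπ using fun b c => (hπ b c).1.sb m
  obtain ⟨B1, hB1⟩ := (finite_range fun p : Fin 3 × Fin 3 => Cπ p.1 p.2).bddAbove
  obtain ⟨C2, C20, hC2⟩ := est (half_pos hc) m (max B0 (max B1 |C|))
  refine ⟨M, (1 + C2) * |C|, ?_⟩
  filter_upwards [hev, hl.eventually_ge_atTop (6 * |C| / c)] with r ⟨j, hj, h1, h0, hest⟩ hr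
  have L1 := hl1 r
  have L0 : 0 < lam r := one_pos.trans_le L1
  have C0 := abs_nonneg C
  have sh' : MS fun z => hm (at' j z) := fun a b => hj.sm (.h a b)
  have sπ' : MS fun z => pm (at' j z) := fun a b => hj.sm (.p a b)
  have sπ : MS (π r) := fun a b => (hπ a b).1.1 r
  have up : ∀ {t : ℝ}, 0 < t → C / t ≤ |C| / t := fun ht =>
    div_le_div_of_nonneg_right (le_abs_self C) ht.le
  have b2 : ∀ y, AM 1 m (fun z => hm (at' j z)) y (|C| / lam r) := fun y a b =>
    an_one.2 fun α hα => ((hest α hα y).1 (.h a b)).trans (up L0)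
  have b3 : ∀ y, AM 1 m (fun z => pm (at' j z)) y (|C| / lam r) := fun y a b =>
    an_one.2 fun α hα => ((hest α hα y).1 (.p a b)).trans (up L0)
  have sm : |C| / lam r ≤ c / 6 := by
    rw [div_le_iff₀ hc] at hr
    rw [div_le_iff₀ L0]
    linarith
  have le1 : |C| / lam r ≤ max B0 (max B1 |C|) :=
    (div_le_self C0 L1).trans ((le_max_right _ _).trans (le_max_right _ _))
  have lo : ∀ y ∈ cube, Lo (c / 2) (h r y + hm (at' j y)) := fun y hy =>
    (Lo.add (hlo r y hy) fun a b => (b2 y a b).zero).mono (by linarith)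
  have z1 : ∀ y, y ∉ cube → hm (at' j y) = 0 := fun y hy => Matrix.ext fun a b => h0 _ y hy
  have z2 : ∀ y, y ∉ cube → pm (at' j y) = 0 := fun y hy => Matrix.ext fun a b => h0 _ y hy
  have pos : ∀ z, (h r z + hm (at' j z)).PosDef := fun z => by
    by_cases hz : z ∈ cube
    · exact (lo z hz).posDef (half_pos hc) fun a b =>
        congrArg₂ (· + ·) (sym_of ((hPD r).pos z).1 a b) (congrFun (hj.hs a b) z)
    · rw [z1 z hz, add_zero]
      exact ((hPD r).pos z).1
  obtain ⟨q1, q2⟩ := new_data A1 A2 A3 (hPD r) (hCC r) hj pos h1 h0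
  have eK : ∀ z, kOf (h r z) (piOf (h r z) (K r z)) = K r z := fun z =>
    (A2 _ _ ((hPD r).pos z).1 ((hPD r).pos z).2).2
  have E := fun s L ε y hL ss => hC2 (h r) (fun z => piOf (h r z) (K r z)) (π r)
    (fun z => hm (at' j z)) (fun z => pm (at' j z)) s L ε y hL (hPD r).sh (sp r) sπ sh' sπ' ss
    (fun z => ((hPD r).pos z).1) pos
    (fun z hz => ⟨z1 z hz, z2 z hz, Matrix.ext fun a b => (hπ a b).2 r z fun h => hz (sK0 h)⟩)
    (fun hy => ⟨Lo.mono (hlo r y hy) (by linarith), lo y hy,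
      (hB0 r y hy).1.bh.mono one_pos (le_max_left _ _),
      (hB0 r y hy).2.mono one_pos (le_max_left _ _)⟩)
    (fun a b => an_one.2 fun α hα => (hCπ a b r α hα y).trans ((hB1 ⟨(a, b), rfl⟩).trans
      ((le_max_left _ _).trans (le_max_right _ _))))
    ((b2 y).mono one_pos le1) ((b3 y).mono one_pos le1)
  simp only [eK] at E
  have eq : K r + (fun z => kOf (h r z + hm (at' j z)) (piOf (h r z) (K r z) + pm (at' j z)) -
      K r z) = fun z => kOf (h r z + hm (at' j z)) (piOf (h r z) (K r z) + pm (at' j z)) := by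
    funext z
    simp
  have cc : |C| ≤ (1 + C2) * |C| := by nlinarith
  have cc2 : C2 * |C| ≤ (1 + C2) * |C| := by nlinarith
  refine ⟨fun z => hm (at' j z), fun z => kOf (h r z + hm (at' j z))
    (piOf (h r z) (K r z) + pm (at' j z)) - K r z, eq.symm ▸ q1, eq.symm ▸ q2,
    fun y hy => ⟨z1 y hy, by simp [z1 y hy, z2 y hy, eK]⟩, fun α hα y a b => ⟨?_, ?_, fun hy =>
      ⟨?_, ?_⟩⟩⟩
  · exact (an_one.1 (b2 y a b) α hα).trans (div_le_div_of_nonneg_right cc L0.le)
  · have := E (fun _ => 0) 1 (|C| / lam r) y le_rfl contDiff_const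
      (fun α _ => by simp [pdl_zero']) (b2 y) (by simpa only [zero_smul, sub_zero] using b3 y)
    simp only [zero_smul, sub_zero] at this
    refine (an_one.1 (this a b) α hα).trans ?_
    rw [← mul_div_assoc]
    exact div_le_div_of_nonneg_right cc2 L0.le
  · exact ((hest α hα y).2 hy a b).1.trans (div_le_div_of_nonneg_right
      (mul_le_mul_of_nonneg_right ((le_abs_self C).trans cc) (by positivity)) (by positivity))
  · have k : ∀ (n : ℕ) (β : List (Fin 3)), M + 1 ≤ n →
        C * lam r ^ n0 β / lam r ^ n ≤ |C| / lam r ^ (M + 1) * lam r ^ n0 β := fun n β hn => by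
      rw [div_mul_eq_mul_div]
      exact (div_le_div_of_nonneg_right (mul_le_mul_of_nonneg_right (le_abs_self C)
        (by positivity)) (by positivity)).trans (div_le_div_of_nonneg_left (by positivity)
        (by positivity) (pow_le_pow_right₀ L1 hn))
    have e2 : ∀ (u v : X3 → M3) (a b : Fin 3),
        (fun z => (u z - ((lam r ^ M)⁻¹ * Real.cos (lam r * z.1)) • v z) a b) =
        fun z => u z a b - v z a b * Real.cos (lam r * z.1) / lam r ^ M := fun u v a b => by
      funext z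
      simp only [Matrix.sub_apply, Matrix.smul_apply, smul_eq_mul]
      ring
    have := E (fun z => (lam r ^ M)⁻¹ * Real.cos (lam r * z.1)) (lam r) (|C| / lam r ^ (M + 1)) y
      L1 (show ContDiff ℝ ∞ _ by fun_prop)
      ((an_cos L0 m y).cmul (show ContDiff ℝ ∞ _ by fun_prop) (by
        rw [abs_of_pos (by positivity)]
        exact inv_le_one_of_one_le₀ (one_le_pow₀ L1)))
      (fun a b β hβ => ((hest β hβ y).2 hy a b).1.trans (k _ β (by omega)))
      (fun a b β hβ => by
        rw [e2]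
        exact ((hest β hβ y).2 hy a b).2.trans (k _ β le_rfl)) a b α hα
    rw [e2] at this
    refine this.trans ?_
    rw [← mul_div_assoc, div_mul_eq_mul_div]
    exact div_le_div_of_nonneg_right (mul_le_mul_of_nonneg_right cc2 (by positivity))
      (by positivity)

end Vale.Agent.P354KC
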