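import Vale.Agent.P354KC.Sc
import Vale.Agent.P354KW.Alg

/-!
Anisotropic Lipschitz bounds for smooth functions of a pair (h, K) with h positive definite.
-/

open scoped ContDiff
open Set Filter Topology

namespace Vale.Agent.P354KC

open Vale.Agent.P354H (X3 e pd pdl pd_sm pdl_sm dif)
open Vale.Agent.P354J (Bd Tm MS)
open Vale.Agent.P354K

abbrev W3 : Type := Fin 3 → Fin 3 → ℝ

/-- The entries of a field of matrices. -/
def en (h : X3 → M3) (y : X3) : W3 := fun a b => h y a b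

/-- The lower bound for a matrix. -/
def Lo (c : ℝ) (G : M3) : Prop := ∀ w : Fin 3 → ℝ, c * ∑ a, w a ^ 2 ≤ ∑ a, ∑ b, w a * G a b * w b

/-- Anisotropic bounds for all entries. -/
def AM (L : ℝ) (m : ℕ) (h : X3 → M3) (y : X3) (c : ℝ) : Prop :=
  ∀ a b, An L m (fun z => h z a b) y c

/-- A pair of fields with bounds at the point y. -/
structure Gp (c B L : ℝ) (m : ℕ) (y : X3) (h K : X3 → M3) : Prop where
  sh : MS h
  sK : MS K
  pos : ∀ z, (h z).PosDef
  lo : Lo c (h y)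
  bh : AM L m h y B
  bK : AM L m K y B

def OO : Set (W3 × W3) := {p | 0 < (Matrix.of p.1).det}
def QQ (c B : ℝ) : Set (W3 × W3) :=
  {p | (∀ a b, p.1 a b = p.1 b a) ∧ Lo c (Matrix.of p.1)} ∩ Metric.closedBall 0 B

/-- Smooth functions of the pair. -/
def SF (F : M3 → M3 → M3) : Prop :=
  ∀ a b, ContDiffOn ℝ ∞ (fun p : W3 × W3 => F (Matrix.of p.1) (Matrix.of p.2) a b) OO

theorem sm_det : ContDiff ℝ ∞ fun p : W3 × W3 => (Matrix.of p.1).det := by
  simp only [Matrix.det_fin_three, Matrix.of_apply]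
  fun_prop

theorem sm_adj (a b : Fin 3) : ContDiff ℝ ∞ fun p : W3 × W3 => (Matrix.of p.1).adjugate a b := by
  fin_cases a <;> fin_cases b <;> simp [Matrix.adjugate_fin_three] <;> fun_prop

theorem sm_inv (a b : Fin 3) : ContDiffOn ℝ ∞ (fun p : W3 × W3 => (Matrix.of p.1)⁻¹ a b) OO := by
  simp only [Matrix.inv_def, Ring.inverse_eq_inv', Matrix.smul_apply, smul_eq_mul]
  exact (sm_det.contDiffOn.inv fun p hp => ne_of_gt hp).mul (sm_adj a b).contDiffOn

theorem sm_sqrt : ContDiffOn ℝ ∞ (fun p : W3 × W3 => √(Matrix.of p.1).det) OO :=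
  sm_det.contDiffOn.sqrt fun _ hp => ne_of_gt hp

theorem sf_pi : SF piOf := fun a b => by
  have k : ∀ c d, ContDiffOn ℝ ∞ (fun p : W3 × W3 => Matrix.of p.2 c d) OO := fun c d =>
    (show ContDiff ℝ ∞ fun p : W3 × W3 => p.2 c d by fun_prop).contDiffOn
  exact sm_sqrt.mul ((ContDiffOn.sum fun c _ => ContDiffOn.sum fun d _ =>
    ((sm_inv a c).mul (sm_inv b d)).mul (k c d)).sub ((sm_inv a b).mul
      (ContDiffOn.sum fun c _ => ContDiffOn.sum fun d _ => (sm_inv c d).mul (k c d))))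

theorem sf_k : SF kOf := fun a b => by
  have k : ContDiff ℝ ∞ fun p : W3 × W3 => par (Matrix.of p.1) (Matrix.of p.2) a b := by
    simp only [par, Matrix.of_apply]
    fun_prop
  exact k.contDiffOn.div sm_sqrt fun p hp => (Real.sqrt_pos.2 hp).ne'

theorem open_OO : IsOpen OO := isOpen_lt continuous_const sm_det.continuous

theorem QQ_sub {c : ℝ} (hc : 0 < c) (B : ℝ) : QQ c B ⊆ OO := fun _ hp =>
  (pow_pos hc 3).trans_le (P354KW.det_ge hp.1.1 hc hp.1.2)

theorem QQ_cpt (c B : ℝ) : IsCompact (QQ c B) := by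
  refine (isCompact_closedBall _ _).inter_left ?_
  refine IsClosed.inter (s₁ := {p : W3 × W3 | ∀ a b, p.1 a b = p.1 b a})
    (s₂ := {p : W3 × W3 | Lo c (Matrix.of p.1)}) ?_ ?_
  · simp only [ofPred_forall]
    exact isClosed_iInter fun a => isClosed_iInter fun b => isClosed_eq (by fun_prop) (by fun_prop)
  · simp only [Lo, ofPred_forall, Matrix.of_apply]
    exact isClosed_iInter fun w => isClosed_le continuous_const (by fun_prop)

theorem QQ_cvx (c B : ℝ) : Convex ℝ (QQ c B) := by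
  refine Convex.inter ?_ (convex_closedBall _ _)
  intro p hp q hq s t hs ht hst
  refine ⟨fun a b => ?_, fun w => ?_⟩
  · simp only [Prod.fst_add, Prod.smul_fst, Pi.add_apply, Pi.smul_apply, hp.1 a b, hq.1 a b]
  · have h1 := mul_le_mul_of_nonneg_left (hp.2 w) hs
    have h2 := mul_le_mul_of_nonneg_left (hq.2 w) ht
    have h3 : c * ∑ a, w a ^ 2 = s * (c * ∑ a, w a ^ 2) + t * (c * ∑ a, w a ^ 2) := by
      rw [← add_mul, hst, one_mul]
    rw [h3]
    refine (add_le_add h1 h2).trans (le_of_eq ?_)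
    simp only [Matrix.of_apply, Prod.fst_add, Prod.smul_fst, Pi.add_apply, Pi.smul_apply,
      smul_eq_mul, Fin.sum_univ_three]
    ring

theorem sm_en {h : X3 → M3} (hh : MS h) : ContDiff ℝ ∞ (en h) :=
  contDiff_pi.2 fun a => contDiff_pi.2 fun b => hh a b

theorem pdl_en (α : List (Fin 3)) {f : X3 → W3} (hf : ContDiff ℝ ∞ f) (x : X3) (a b : Fin 3) :
    pdl α f x a b = pdl α (fun z => f z a b) x :=
  (congrFun (P354J.pdl_clm ((ContinuousLinearMap.proj b : (Fin 3 → ℝ) →L[ℝ] ℝ).comp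
    (ContinuousLinearMap.proj a : W3 →L[ℝ] (Fin 3 → ℝ))) hf α) x).symm

theorem bd_en {m : ℕ} {f : X3 → W3} (hf : ContDiff ℝ ∞ f) {x : X3} {c : ℝ} :
    Bd m f x c ↔ ∀ a b, Bd m (fun z => f z a b) x c := by
  refine ⟨fun h a b α hα => ?_, fun h α hα => ?_⟩
  · rw [← pdl_en α hf]
    exact ((norm_le_pi_norm _ b).trans (norm_le_pi_norm _ a)).trans (h α hα)
  · have h0 := (h 0 0).nonneg
    refine (pi_norm_le_iff_of_nonneg h0).2 fun a => (pi_norm_le_iff_of_nonneg h0).2 fun b => ?_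
    rw [pdl_en α hf]
    exact h a b α hα

theorem am_iff {L : ℝ} (hL : 0 < L) {m : ℕ} {h : X3 → M3} (hh : MS h) (x : X3) (c : ℝ) :
    AM L m h (sc L x) c ↔ Bd m (fun z => en h (sc L z)) x c := by
  exact (forall₂_congr fun a b => an_iff hL (hh a b) x c).trans
    (bd_en (f := fun z => en h (sc L z)) ((sm_en hh).comp (sc L).contDiff)).symm

theorem SF.ms {F : M3 → M3 → M3} (hF : SF F) {h K : X3 → M3} (hh : MS h) (hK : MS K)
    (hp : ∀ z, (h z).PosDef) : MS fun z => F (h z) (K z) := fun a b =>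
  (hF a b).comp_contDiff ((sm_en hh).prodMk (sm_en hK)) fun z => (hp z).det_pos

theorem Gp.mem {c B L : ℝ} {m : ℕ} {y : X3} {h K : X3 → M3} (g : Gp c B L m y h K) :
    (en h y, en K y) ∈ QQ c B := by
  have h0 := (g.bh 0 0).nonneg
  refine ⟨⟨fun a b => ?_, g.lo⟩, mem_closedBall_zero_iff.2 (max_le ?_ ?_)⟩
  · simpa [en] using (g.pos y).isHermitian.apply b a
  · exact (pi_norm_le_iff_of_nonneg h0).2 fun a => (pi_norm_le_iff_of_nonneg h0).2 fun b =>
      (g.bh a b).zero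
  · exact (pi_norm_le_iff_of_nonneg h0).2 fun a => (pi_norm_le_iff_of_nonneg h0).2 fun b =>
      (g.bK a b).zero

/-- The Lipschitz estimate. -/
theorem lip {F : M3 → M3 → M3} (hF : SF F) (m : ℕ) (B : ℝ) {c : ℝ} (hc : 0 < c) :
    ∃ C, 0 ≤ C ∧ ∀ (L ε : ℝ) (y : X3) (h K h' K' : X3 → M3), 0 < L → Gp c B L m y h K →
      Gp c B L m y h' K' → AM L m (fun z => h z - h' z) y ε → AM L m (fun z => K z - K' z) y ε →
      AM L m (fun z => F (h z) (K z)) y C ∧
        AM L m (fun z => F (h z) (K z) - F (h' z) (K' z)) y (C * ε) := by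
  obtain ⟨C, hC0, hC⟩ := Tm.comp m (W3 × W3) W3
    (fun p a b => F (Matrix.of p.1) (Matrix.of p.2) a b) OO (QQ c B) B open_OO
    (contDiffOn_pi.2 fun a => contDiffOn_pi.2 fun b => hF a b) (QQ_sub hc B) (QQ_cpt c B)
    (QQ_cvx c B)
  refine ⟨C, hC0, fun L ε y h K h' K' hL g g' d1 d2 => ?_⟩
  obtain ⟨x, rfl⟩ := sc_surj hL y
  have s : ∀ {u : X3 → M3}, MS u → ContDiff ℝ ∞ fun z => en u (sc L z) := fun hu =>
    (sm_en hu).comp (sc L).contDiff
  have t : Tm m B ε x (fun z => en h (sc L z)) (fun z => en h' (sc L z)) :=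
    ⟨s g.sh, s g'.sh, (am_iff hL g.sh x _).1 g.bh, (am_iff hL g'.sh x _).1 g'.bh,
      (am_iff hL (g.sh.sub g'.sh) x _).1 d1⟩
  have t' : Tm m B ε x (fun z => en K (sc L z)) (fun z => en K' (sc L z)) :=
    ⟨s g.sK, s g'.sK, (am_iff hL g.sK x _).1 g.bK, (am_iff hL g'.sK x _).1 g'.bK,
      (am_iff hL (g.sK.sub g'.sK) x _).1 d2⟩
  have k := hC ε x _ _ (t.pair t') (fun z => (g.pos _).det_pos) (fun z => (g'.pos _).det_pos)
    g.mem g'.mem
  have m1 := hF.ms g.sh g.sK g.pos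
  exact ⟨(am_iff hL m1 x _).2 k.bf, (am_iff hL (m1.sub (hF.ms g'.sh g'.sK g'.pos)) x _).2 k.bd⟩

theorem Lo.add {c η : ℝ} {G H : M3} (h : Lo c G) (hH : ∀ a b, |H a b| ≤ η) :
    Lo (c - 3 * η) (G + H) := fun w => by
  have h1 := h w
  have k : ∀ a b, -(η * (w a ^ 2 + w b ^ 2) / 2) ≤ w a * H a b * w b := fun a b => by
    have h2 := abs_le.1 (hH a b)
    nlinarith [mul_nonneg (sub_nonneg.2 h2.1) (sq_nonneg (w a + w b)),
      mul_nonneg (sub_nonneg.2 h2.2) (sq_nonneg (w a - w b))]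
  simp only [Fin.sum_univ_three, Matrix.add_apply] at h1 ⊢
  nlinarith [k 0 0, k 0 1, k 0 2, k 1 0, k 1 1, k 1 2, k 2 0, k 2 1, k 2 2]

theorem Lo.mono {c c' : ℝ} {G : M3} (h : Lo c G) (hc : c' ≤ c) : Lo c' G := fun w =>
  (mul_le_mul_of_nonneg_right hc (Finset.sum_nonneg fun _ _ => sq_nonneg _)).trans (h w)

theorem Lo.posDef {c : ℝ} {G : M3} (h : Lo c G) (hc : 0 < c) (hs : ∀ a b, G a b = G b a) :
    G.PosDef := by
  refine Matrix.PosDef.of_dotProduct_mulVec_pos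
    (Matrix.IsHermitian.ext fun a b => by simpa using hs b a) fun w hw => ?_
  obtain ⟨i, hi⟩ := Function.ne_iff.1 hw
  have h1 : 0 < ∑ a, w a ^ 2 := Finset.sum_pos' (fun _ _ => sq_nonneg _)
    ⟨i, Finset.mem_univ _, sq_pos_of_ne_zero hi⟩
  refine ((mul_pos hc h1).trans_le (h w)).trans_le (le_of_eq ?_)
  simp [dotProduct, Matrix.mulVec, Finset.mul_sum, mul_assoc]

end Vale.Agent.P354KC
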