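import Vale.Agent.P354KC.Lip

/-!
From the deformation theorem for jets to the deformation theorem for (h, K).
-/

open scoped ContDiff
open Set Filter Topology

namespace Vale.Agent.P354KC

open Vale.Agent.P354H (X3 e pd pdl pd_sm pdl_sm dif Sb)
open Vale.Agent.P354J (Bd Tm MS PD CC)
open Vale.Agent.P354K

theorem jet_jet {h π : X3 → M3} (hh : MS h) (hπ : MS π) (s1 : ∀ z a b, h z a b = h z b a)
    (s2 : ∀ z a b, π z a b = π z b a) : Jet pd (jet h π) where
  sm
    | .h a b => hh a b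
    | .dh i a b => pd_sm i (hh a b)
    | .ddh i k a b => pd_sm i (pd_sm k (hh a b))
    | .p a b => hπ a b
    | .dp i a b => pd_sm i (hπ a b)
  hs a b := funext fun z => s1 z a b
  ps a b := funext fun z => s2 z a b
  dh _ _ _ := rfl
  ddh _ _ _ _ := rfl
  dp _ _ _ := rfl

theorem jet_add {h π h' π' : X3 → M3} (hh : MS h) (hπ : MS π) (hh' : MS h') (hπ' : MS π')
    (x : Jt) : jet (fun z => h z + h' z) (fun z => π z + π' z) x =
      fun y => jet h π x y + jet h' π' x y := by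
  cases x with
  | h a b => rfl
  | dh i a b => exact pd_add' i (hh a b) (hh' a b)
  | ddh i k a b =>
    exact (congrArg (pd i) (pd_add' k (hh a b) (hh' a b))).trans
      (pd_add' i (pd_sm k (hh a b)) (pd_sm k (hh' a b)))
  | p a b => rfl
  | dp i a b => exact pd_add' i (hπ a b) (hπ' a b)

theorem jet_sub {h π h' π' : X3 → M3} (hh : MS h) (hπ : MS π) (hh' : MS h') (hπ' : MS π')
    (x : Jt) : jet (fun z => h z - h' z) (fun z => π z - π' z) x =
      fun y => jet h π x y - jet h' π' x y := by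
  cases x with
  | h a b => rfl
  | dh i a b => exact pd_sub' i (hh a b) (hh' a b)
  | ddh i k a b =>
    exact (congrArg (pd i) (pd_sub' k (hh a b) (hh' a b))).trans
      (pd_sub' i (pd_sm k (hh a b)) (pd_sm k (hh' a b)))
  | p a b => rfl
  | dp i a b => exact pd_sub' i (hπ a b) (hπ' a b)

theorem jet_of {j : Jt → X3 → ℝ} (hj : Jet pd j) :
    jet (fun y => hm (at' j y)) (fun y => pm (at' j y)) = j := by
  funext x
  cases x with
  | h a b => rfl
  | dh i a b => exact (hj.dh i a b).symm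
  | ddh i k a b => rw [hj.ddh, hj.dh]; rfl
  | p a b => rfl
  | dp i a b => exact (hj.dp i a b).symm

theorem jet_bd {h π : X3 → M3} {n : ℕ} {y : X3} {B : ℝ} (h1 : AM 1 (n + 2) h y B)
    (h2 : AM 1 (n + 2) π y B) (x : Jt) (α : List (Fin 3)) (hα : α.length ≤ n) :
    |pdl α (jet h π x) y| ≤ B := by
  cases x with
  | h a b => exact an_one.1 (h1 a b) α (by omega)
  | dh i a b => exact an_one.1 (h1 a b) (i :: α) (by simp; omega)
  | ddh i k a b => exact an_one.1 (h1 a b) (k :: i :: α) (by simp; omega)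
  | p a b => exact an_one.1 (h2 a b) α (by omega)
  | dp i a b => exact an_one.1 (h2 a b) (i :: α) (by simp; omega)

theorem AM.mono {L : ℝ} {m : ℕ} {h : X3 → M3} {y : X3} {c c' : ℝ} (H : AM L m h y c)
    (hL : 0 < L) (hc : c ≤ c') : AM L m h y c' := fun a b => (H a b).mono hL le_rfl hc

theorem AM.up {L : ℝ} {m : ℕ} {h : X3 → M3} {y : X3} {c : ℝ} (H : AM 1 m h y c)
    (hL : 1 ≤ L) : AM L m h y c := fun a b => (H a b).up hL

theorem AM.add {L : ℝ} {m : ℕ} {h k : X3 → M3} {y : X3} {c d : ℝ} (H : AM L m h y c)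
    (H' : AM L m k y d) (hh : MS h) (hk : MS k) : AM L m (fun z => h z + k z) y (c + d) :=
  fun a b => (H a b).add (H' a b) (hh a b) (hk a b)

theorem am_out {L : ℝ} {m : ℕ} {h : X3 → M3} {y : X3} {c : ℝ} (hL : 0 < L) (hc : 0 ≤ c)
    (hh : MS h) (h0 : ∀ z, z ∉ cube → h z = 0) (hy : y ∉ cube) : AM L m h y c := fun a b α _ => by
  rw [pdl_out α (hh a b) (fun z hz => by rw [h0 z hz]; rfl) y hy, abs_zero]
  positivity

theorem kOf_lin (h p q : M3) (s : ℝ) : kOf h (p + s • q) = kOf h p + s • kOf h q := by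
  ext a b
  simp only [kOf, par, Matrix.of_apply, Matrix.add_apply, Matrix.smul_apply, smul_eq_mul,
    Fin.sum_univ_three]
  ring

theorem kOf_zero (h : M3) : kOf h 0 = 0 := by
  ext a b
  simp [kOf, par]

/-- Uniform bounds for the base data and their momentum densities. -/
theorem unif {P : Type} {h K : P → X3 → M3} {c : ℝ} (hc : 0 < c) (hPD : ∀ r, PD (h r) (K r))
    (hb : ∀ α, ∃ C, ∀ r a b, ∀ y ∈ cube,
      |pdl α (fun z => h r z a b) y| ≤ C ∧ |pdl α (fun z => K r z a b) y| ≤ C)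
    (hlo : ∀ r, ∀ y ∈ cube, Lo c (h r y)) (m : ℕ) :
    ∃ B, 0 ≤ B ∧ ∀ r, ∀ y ∈ cube, Gp c B 1 m y (h r) (K r) ∧
      AM 1 m (fun z => piOf (h r z) (K r z)) y B := by
  obtain ⟨B, hB⟩ := words_bound (F := fun α C => ∀ r a b, ∀ y ∈ cube,
    |pdl α (fun z => h r z a b) y| ≤ C ∧ |pdl α (fun z => K r z a b) y| ≤ C)
    (fun α s t hst H r a b y hy => ⟨(H r a b y hy).1.trans hst, (H r a b y hy).2.trans hst⟩) hb m
  obtain ⟨C, hC0, hC⟩ := lip sf_pi m B hc
  refine ⟨max B C, le_max_of_le_right hC0, fun r y hy => ?_⟩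
  have g : Gp c B 1 m y (h r) (K r) := ⟨(hPD r).sh, (hPD r).sK, fun z => ((hPD r).pos z).1,
    hlo r y hy, fun a b => an_one.2 fun α hα => (hB α hα r a b y hy).1,
    fun a b => an_one.2 fun α hα => (hB α hα r a b y hy).2⟩
  have z : ∀ u : X3 → M3, AM 1 m (fun z => u z - u z) y 0 := fun u a b α _ => by
    simp [pdl_zero']
  exact ⟨⟨g.sh, g.sK, g.pos, g.lo, g.bh.mono one_pos (le_max_left _ _),
    g.bK.mono one_pos (le_max_left _ _)⟩,
    (hC 1 0 y _ _ _ _ one_pos g g (z _) (z _)).1.mono one_pos (le_max_right _ _)⟩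

/-- The jets are close when the data are close. -/
theorem close {c : ℝ} (hc : 0 < c) (B : ℝ) : ∃ C, 0 ≤ C ∧ ∀ (η : ℝ) (y : X3)
    (h K hs Ks : X3 → M3), η ≤ c / 6 → Gp c B 1 2 y h K → PD hs Ks →
    AM 1 2 (fun z => h z - hs z) y η → AM 1 2 (fun z => K z - Ks z) y η → ∀ x,
    |jet h (fun z => piOf (h z) (K z)) x y - jet hs (fun z => piOf (hs z) (Ks z)) x y| ≤
      C * η := by
  obtain ⟨C, hC0, hC⟩ := lip sf_pi 2 (B + c / 6) (half_pos hc)
  refine ⟨C + 1, by linarith, fun η y h K hs Ks hη g p d1 d2 x => ?_⟩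
  have h0 := (d1 0 0).nonneg
  have k : ∀ {u v : X3 → M3}, MS u → MS v → AM 1 2 u y B → AM 1 2 (fun z => u z - v z) y η →
      AM 1 2 v y (B + c / 6) := fun {u v} hu hv H H' a b => by
    have := ((H a b).sub (H' a b) (hu a b) (hu.sub hv a b)).mono one_pos le_rfl
      (add_le_add_right hη B)
    simpa using this
  have lo : Lo (c / 2) (hs y) := by
    have := (g.lo.add (H := hs y - h y) (η := η) fun a b => by
      rw [Matrix.sub_apply, abs_sub_comm]
      exact (d1 a b).zero).mono (c' := c / 2) (by linarith)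
    simpa using this
  have g1 : Gp (c / 2) (B + c / 6) 1 2 y h K := ⟨g.sh, g.sK, g.pos, g.lo.mono (by linarith),
    g.bh.mono one_pos (by linarith), g.bK.mono one_pos (by linarith)⟩
  have g2 : Gp (c / 2) (B + c / 6) 1 2 y hs Ks := ⟨p.sh, p.sK, fun z => (p.pos z).1, lo,
    k g.sh p.sh g.bh d1, k g.sK p.sK g.bK d2⟩
  have := jet_bd (n := 0) (d1.mono one_pos (show η ≤ (C + 1) * η by nlinarith))
    ((hC 1 η y _ _ _ _ one_pos g1 g2 d1 d2).2.mono one_pos (by nlinarith)) x [] le_rfl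
  rwa [jet_sub g.sh (sf_pi.ms g.sh g.sK g.pos) p.sh (sf_pi.ms p.sh p.sK g2.pos)] at this

/-- The estimates for the new second fundamental form. -/
theorem est {c : ℝ} (hc : 0 < c) (m : ℕ) (B : ℝ) : ∃ C, 0 ≤ C ∧ ∀ (h p π h' π' : X3 → M3)
    (s : X3 → ℝ) (L ε : ℝ) (y : X3), 1 ≤ L → MS h → MS p → MS π → MS h' → MS π' → Sm s →
    (∀ z, (h z).PosDef) → (∀ z, (h z + h' z).PosDef) →
    (∀ z, z ∉ cube → h' z = 0 ∧ π' z = 0 ∧ π z = 0) →
    (y ∈ cube → Lo c (h y) ∧ Lo c (h y + h' y) ∧ AM 1 m h y B ∧ AM 1 m p y B) →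
    AM 1 m π y B → AM 1 m h' y B → AM 1 m π' y B → An L m s y 1 →
    AM L m h' y ε → AM L m (fun z => π' z - s z • π z) y ε →
    AM L m (fun z => kOf (h z + h' z) (p z + π' z) - kOf (h z) (p z) - s z • kOf (h z) (π z)) y
      (C * ε) := by
  obtain ⟨C, hC0, hC⟩ := lip sf_k m (B + 2 ^ m * B) hc
  refine ⟨C, hC0, fun h p π h' π' s L ε y hL sh sp sπ sh' sπ' ss p1 p2 h0 hy b1 b2 b3 b4 d1 d2 =>
    ?_⟩
  have L0 : 0 < L := one_pos.trans_le hL
  by_cases hyc : y ∈ cube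
  · obtain ⟨l1, l2, b5, b6⟩ := hy hyc
    have B0 := (b1 0 0).nonneg
    have B1 : B ≤ 2 ^ m * B := le_mul_of_one_le_left B0 (one_le_pow₀ (by norm_num))
    have g1 : Gp c (B + 2 ^ m * B) L m y (fun z => h z + h' z) (fun z => p z + π' z) :=
      ⟨sh.add sh', sp.add sπ', p2, l2, ((b5.add b2 sh sh').up hL).mono L0 (by linarith),
        ((b6.add b3 sp sπ').up hL).mono L0 (by linarith)⟩
    have b7 : AM L m (fun z => s z • π z) y (2 ^ m * B) := fun a b =>
      (b4.mul ((b1 a b).up hL) L0 ss (sπ a b)).mono L0 le_rfl (by rw [mul_one])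
    have g2 : Gp c (B + 2 ^ m * B) L m y h (fun z => p z + s z • π z) :=
      ⟨sh, sp.add (MS.smul ss sπ), p1, l1, (b5.up hL).mono L0 (by linarith),
        (b6.up hL).add b7 sp (MS.smul ss sπ)⟩
    have := (hC L ε y _ _ _ _ L0 g1 g2 (by simpa only [add_sub_cancel_left] using d1)
      (by simpa only [add_sub_add_left_eq_sub] using d2)).2
    simpa only [kOf_lin, sub_add_eq_sub_sub] using this
  · refine am_out L0 (mul_nonneg hC0 (d1 0 0).nonneg) (((sf_k.ms (sh.add sh') (sp.add sπ') p2).sub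
      (sf_k.ms sh sp p1)).sub (MS.smul ss (sf_k.ms sh sπ p1))) (fun z hz => ?_) hyc
    obtain ⟨e1, e2, e3⟩ := h0 z hz
    simp [e1, e2, e3, kOf_zero]

end Vale.Agent.P354KC
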