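import Vale.Agent.P354K.Top
import Vale.Agent.P354K.Calc

/-!
Anisotropic pointwise bounds: a derivative in the direction 0 costs a factor L.
-/

open scoped ContDiff
open Set Filter Topology

namespace Vale.Agent.P354KC

open Vale.Agent.P354H (X3 e pd pdl pd_sm pdl_sm dif)
open Vale.Agent.P354J (Bd Tm MS)
open Vale.Agent.P354K

/-- The derivatives of order at most m of f at y are bounded by c L ^ (n0 α). -/
def An (L : ℝ) (m : ℕ) (f : X3 → ℝ) (y : X3) (c : ℝ) : Prop :=
  ∀ α : List (Fin 3), α.length ≤ m → |pdl α f y| ≤ c * L ^ n0 α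

/-- The scaling of the first coordinate. -/
noncomputable def sc (L : ℝ) : X3 →L[ℝ] X3 :=
  (L⁻¹ • ContinuousLinearMap.fst ℝ ℝ (ℝ × ℝ)).prod (ContinuousLinearMap.snd ℝ ℝ (ℝ × ℝ))

theorem sc_apply (L : ℝ) (z : X3) : sc L z = (L⁻¹ * z.1, z.2) := rfl

theorem sc_e (L : ℝ) (j : Fin 3) : sc L (e j) = L⁻¹ ^ n0 [j] • e j := by
  fin_cases j <;> simp [sc_apply, e, n0]

theorem n0_cons (j : Fin 3) (α : List (Fin 3)) : n0 (j :: α) = n0 [j] + n0 α := by
  simp only [n0, List.count_cons, List.count_nil]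
  omega

theorem sm_sc (L : ℝ) {f : X3 → ℝ} (hf : Sm f) : Sm fun z => f (sc L z) :=
  hf.comp (sc L).contDiff

theorem pd_sc (L : ℝ) (j : Fin 3) {f : X3 → ℝ} (hf : Sm f) :
    pd j (fun z => f (sc L z)) = fun z => L⁻¹ ^ n0 [j] * pd j f (sc L z) := by
  funext z
  have := ((dif hf (sc L z)).hasFDerivAt.comp z (sc L).hasFDerivAt).fderiv
  unfold pd
  rw [show (fun z => f (sc L z)) = f ∘ sc L from rfl, this, ContinuousLinearMap.comp_apply, sc_e,
    map_smul, smul_eq_mul]

theorem pdl_sc (L : ℝ) (α : List (Fin 3)) {f : X3 → ℝ} (hf : Sm f) :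
    pdl α (fun z => f (sc L z)) = fun z => L⁻¹ ^ n0 α * pdl α f (sc L z) := by
  induction α generalizing f with
  | nil => funext z; simp [pdl, n0]
  | cons j α ih =>
    simp only [pdl]
    rw [pd_sc L j hf, pdl_cmul α _ (sm_sc L (pd_sm j hf)), ih (pd_sm j hf), n0_cons j α]
    funext z
    ring

theorem an_iff {L : ℝ} (hL : 0 < L) {m : ℕ} {f : X3 → ℝ} (hf : Sm f) (x : X3) (c : ℝ) :
    An L m f (sc L x) c ↔ Bd m (fun z => f (sc L z)) x c := by
  refine forall₂_congr fun α _ => ?_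
  rw [pdl_sc L α hf, Real.norm_eq_abs, abs_mul, abs_of_pos (pow_pos (inv_pos.2 hL) _), inv_pow,
    inv_mul_le_iff₀ (pow_pos hL _), mul_comm]

theorem sc_surj {L : ℝ} (hL : 0 < L) (y : X3) : ∃ x, sc L x = y :=
  ⟨(L * y.1, y.2), by rw [sc_apply, inv_mul_cancel_left₀ hL.ne']⟩

theorem An.mono {L : ℝ} {m m' : ℕ} {f : X3 → ℝ} {y : X3} {c c' : ℝ} (h : An L m f y c)
    (hL : 0 < L) (hm : m' ≤ m) (hc : c ≤ c') : An L m' f y c' := fun α hα =>
  (h α (hα.trans hm)).trans (mul_le_mul_of_nonneg_right hc (pow_pos hL _).le)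

theorem An.zero {L : ℝ} {m : ℕ} {f : X3 → ℝ} {y : X3} {c : ℝ} (h : An L m f y c) : |f y| ≤ c := by
  simpa [n0, pdl] using h [] (Nat.zero_le _)

theorem An.nonneg {L : ℝ} {m : ℕ} {f : X3 → ℝ} {y : X3} {c : ℝ} (h : An L m f y c) : 0 ≤ c :=
  (abs_nonneg _).trans h.zero

theorem an_one {m : ℕ} {f : X3 → ℝ} {y : X3} {c : ℝ} :
    An 1 m f y c ↔ ∀ α : List (Fin 3), α.length ≤ m → |pdl α f y| ≤ c := by
  simp [An]

theorem An.up {L : ℝ} {m : ℕ} {f : X3 → ℝ} {y : X3} {c : ℝ} (h : An 1 m f y c) (hL : 1 ≤ L) :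
    An L m f y c := fun α hα =>
  (an_one.1 h α hα).trans (le_mul_of_one_le_right h.nonneg (one_le_pow₀ hL))

theorem An.add {L : ℝ} {m : ℕ} {f g : X3 → ℝ} {y : X3} {c d : ℝ} (h : An L m f y c)
    (h' : An L m g y d) (hf : Sm f) (hg : Sm g) : An L m (fun z => f z + g z) y (c + d) := by
  intro α hα
  rw [pdl_add' α hf hg, add_mul]
  exact (abs_add_le _ _).trans (add_le_add (h α hα) (h' α hα))

theorem An.cmul {L : ℝ} {m : ℕ} {f : X3 → ℝ} {y : X3} {c : ℝ} (h : An L m f y c) (hf : Sm f)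
    {a : ℝ} (ha : |a| ≤ 1) : An L m (fun z => a * f z) y c := by
  intro α hα
  rw [pdl_cmul α a hf, abs_mul]
  exact (mul_le_of_le_one_left (abs_nonneg _) ha).trans (h α hα)

theorem An.sub {L : ℝ} {m : ℕ} {f g : X3 → ℝ} {y : X3} {c d : ℝ} (h : An L m f y c)
    (h' : An L m g y d) (hf : Sm f) (hg : Sm g) : An L m (fun z => f z - g z) y (c + d) := by
  intro α hα
  rw [pdl_sub' α hf hg, add_mul]
  exact (abs_sub _ _).trans (add_le_add (h α hα) (h' α hα))

theorem bd_mul (m : ℕ) : ∀ {f g : X3 → ℝ} {x : X3} {c d : ℝ}, Sm f → Sm g → Bd m f x c →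
    Bd m g x d → Bd m (fun z => f z * g z) x (2 ^ m * c * d) := by
  induction m with
  | zero =>
    intro f g x c d _ _ h h' α hα
    rw [List.length_eq_zero_iff.1 (Nat.le_zero.1 hα), pow_zero, one_mul]
    exact (norm_mul_le _ _).trans (mul_le_mul h.zero h'.zero (norm_nonneg _) h.nonneg)
  | succ m ih =>
    intro f g x c d hf hg h h'
    have h0 := mul_nonneg h.nonneg h'.nonneg
    refine Bd.succ ?_ fun j α hα => ?_
    · refine ((norm_mul_le _ _).trans (mul_le_mul h.zero h'.zero (norm_nonneg _) h.nonneg)).trans ?_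
      rw [mul_assoc]
      exact le_mul_of_one_le_left h0 (one_le_pow₀ (by norm_num))
    · have e1 : pd j (fun z => f z * g z) = fun z => pd j f z * g z + f z * pd j g z :=
        funext (P354J.pd_mul hf hg j)
      rw [e1, pdl_add' α ((pd_sm j hf).mul hg) (hf.mul (pd_sm j hg))]
      exact (norm_add_le_of_le (ih (pd_sm j hf) hg (h.pd j) (h'.mono m.le_succ le_rfl) α hα)
        (ih hf (pd_sm j hg) (h.mono m.le_succ le_rfl) (h'.pd j) α hα)).trans (le_of_eq (by ring))

theorem An.mul {L : ℝ} {m : ℕ} {f g : X3 → ℝ} {y : X3} {c d : ℝ} (h : An L m f y c)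
    (h' : An L m g y d) (hL : 0 < L) (hf : Sm f) (hg : Sm g) :
    An L m (fun z => f z * g z) y (2 ^ m * c * d) := by
  obtain ⟨x, rfl⟩ := sc_surj hL y
  exact (an_iff hL (hf.mul hg) x _).2 (bd_mul m (sm_sc L hf) (sm_sc L hg) ((an_iff hL hf x _).1 h)
    ((an_iff hL hg x _).1 h'))

theorem pdl_cos (α : List (Fin 3)) (φ : ℝ) (x : X3) :
    |pdl α (fun z => Real.cos (z.1 + φ)) x| ≤ 1 := by
  induction α generalizing φ with
  | nil => exact Real.abs_cos_le_one _
  | cons j α ih =>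
    have s : Sm fun z : X3 => co 0 z + φ := (co_sm 0).add contDiff_const
    have e1 : pd j (fun z : X3 => Real.cos (z.1 + φ)) =
        fun z => (if 0 = j then 1 else 0) * Real.cos (z.1 + (φ + Real.pi / 2)) := by
      refine (pd_comp j Real.hasDerivAt_cos s).trans ?_
      rw [pd_add' j (co_sm 0) contDiff_const, pd_co, pd_const]
      funext z
      rw [← add_assoc, Real.cos_add_pi_div_two, mul_comm]
      exact congrArg₂ _ (add_zero _) rfl
    simp only [pdl]
    rw [e1, pdl_cmul α _ (show ContDiff ℝ ∞ _ by fun_prop), abs_mul]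
    refine mul_le_one₀ ?_ (abs_nonneg _) (ih _)
    split_ifs <;> simp

theorem an_cos {L : ℝ} (hL : 0 < L) (m : ℕ) (y : X3) :
    An L m (fun z => Real.cos (L * z.1)) y 1 := by
  obtain ⟨x, rfl⟩ := sc_surj hL y
  refine (an_iff hL (show ContDiff ℝ ∞ _ by fun_prop) x _).2 fun α _ => ?_
  have := pdl_cos α 0 x
  simpa only [sc_apply, mul_inv_cancel_left₀ hL.ne', add_zero, Real.norm_eq_abs] using this

/-- Derivatives of a function that vanishes outside the open cube vanish there. -/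
theorem pd_out (j : Fin 3) {f : X3 → ℝ} (hf : Sm f) (h : ∀ y, y ∉ cube → f y = 0) (y : X3)
    (hy : y ∉ cube) : pd j f y = 0 := by
  have hc : IsClosed {z : X3 | ∀ i, |co i z| ≤ Real.pi} := by
    rw [ofPred_forall]
    exact isClosed_iInter fun i => isClosed_le (co_sm i).continuous.abs continuous_const
  have h1 := pd_supp j hc (f := f) fun z hz => h z fun hz' => hz fun i => (hz' i).le
  have h2 : IsClosed {t : ℝ | pd j f (t • y) = 0} :=
    isClosed_eq ((pd_sm j hf).continuous.comp (by fun_prop)) continuous_const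
  have h3 : Ioi (1 : ℝ) ⊆ {t : ℝ | pd j f (t • y) = 0} := fun t ht => h1 _ fun hz => hy fun i => by
    have := hz i
    rw [co_smul, abs_mul, abs_of_pos (zero_lt_one.trans ht)] at this
    by_contra hn
    have : (1 : ℝ) < t := ht
    nlinarith [Real.pi_pos, not_lt.1 hn]
  have h4 := h2.closure_subset_iff.2 h3 (show (1 : ℝ) ∈ closure (Ioi 1) by simp)
  simpa using h4

theorem pdl_out (α : List (Fin 3)) {f : X3 → ℝ} (hf : Sm f) (h : ∀ y, y ∉ cube → f y = 0) (y : X3)
    (hy : y ∉ cube) : pdl α f y = 0 := by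
  induction α generalizing f with
  | nil => exact h y hy
  | cons j α ih => exact ih (pd_sm j hf) (pd_out j hf h)

end Vale.Agent.P354KC
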